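import Mathlib

/-! # P130 — cutting and stacking data: radices, block starts, offsets and roof -/

noncomputable section

namespace Vale.Agent.P130.RankOne

/-- The heights of the columns. -/
def hgt (p : ℕ → ℕ) (s : ℕ → ℕ → ℕ) : ℕ → ℕ
  | 0 => 1
  | n + 1 => s n (p n - 1) + hgt p s n

/-- The number of base intervals. -/
def radix (p : ℕ → ℕ) : ℕ → ℕ
  | 0 => 1
  | n + 1 => radix p n * p n

/-- Cutting and stacking: column `n` is cut into `p n` pieces, the `i`-th one is placed at `s n i`;
the total spacer mass is finite. -/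
structure Stack where
  p : ℕ → ℕ
  two_le : ∀ n, 2 ≤ p n
  s : ℕ → ℕ → ℕ
  s_zero : ∀ n, s n 0 = 0
  gap : ∀ n i, i + 1 < p n → s n i + hgt p s n ≤ s n (i + 1)
  bdd : ∃ C : ℕ, ∀ n, hgt p s n ≤ C * radix p n

namespace Stack

variable (S : Stack)

/-- The height of column `n`. -/
abbrev h (n : ℕ) : ℕ := hgt S.p S.s n

/-- The number of base pieces of column `n`. -/
abbrev M (n : ℕ) : ℕ := radix S.p n

theorem p_pos (n : ℕ) : 0 < S.p n := lt_of_lt_of_le two_pos (S.two_le n)

theorem M_succ (n : ℕ) : S.M (n + 1) = S.M n * S.p n := rfl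

theorem h_succ (n : ℕ) : S.h (n + 1) = S.s n (S.p n - 1) + S.h n := rfl

theorem M_pos : ∀ n, 0 < S.M n
  | 0 => Nat.one_pos
  | n + 1 => Nat.mul_pos (M_pos n) (S.p_pos n)

theorem h_pos : ∀ n, 0 < S.h n
  | 0 => Nat.one_pos
  | n + 1 => by rw [h_succ]; exact Nat.add_pos_right _ (h_pos n)

theorem M_dvd {n m : ℕ} (h : n ≤ m) : S.M n ∣ S.M m := by
  induction m, h using Nat.le_induction with
  | base => exact dvd_rfl
  | succ m _ ih => exact Dvd.dvd.mul_right ih _

theorem two_pow_le_M : ∀ n, 2 ^ n ≤ S.M n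
  | 0 => le_rfl
  | n + 1 => by
      rw [pow_succ]
      exact Nat.mul_le_mul (two_pow_le_M n) (S.two_le n)

theorem tendsto_M : Filter.Tendsto S.M Filter.atTop Filter.atTop :=
  Filter.tendsto_atTop_mono S.two_pow_le_M (tendsto_pow_atTop_atTop_of_one_lt (by norm_num))

theorem s_add_le {n i i' : ℕ} (hlt : i < i') (hi' : i' < S.p n) :
    S.s n i + S.h n ≤ S.s n i' := by
  induction i', hlt using Nat.le_induction with
  | base => exact S.gap n i hi'
  | succ i' _ ih => exact ((ih (by omega)).trans (Nat.le_add_right _ _)).trans (S.gap n i' hi')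

theorem s_add_le_h {n i : ℕ} (hi : i < S.p n) : S.s n i + S.h n ≤ S.h (n + 1) := by
  rw [h_succ]
  rcases Nat.lt_or_ge i (S.p n - 1) with h | h
  · have h1 := S.s_add_le (n := n) (i' := S.p n - 1) h (by have := S.p_pos n; omega)
    omega
  · rw [show i = S.p n - 1 by omega]

/-- The position in column `n` of the base piece `J`. -/
def off : ℕ → ℕ → ℕ
  | 0, _ => 0
  | n + 1, J => off n (J % S.M n) + S.s n (J / S.M n)

theorem off_succ (n J : ℕ) :
    S.off (n + 1) J = S.off n (J % S.M n) + S.s n (J / S.M n) := rfl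

theorem div_lt {n J : ℕ} (hJ : J < S.M (n + 1)) : J / S.M n < S.p n := by
  rw [Nat.div_lt_iff_lt_mul (S.M_pos n), mul_comm]
  exact hJ

theorem extend_lt {n j i : ℕ} (hj : j < S.M n) (hi : i < S.p n) :
    j + i * S.M n < S.M (n + 1) := by
  rw [M_succ]
  calc j + i * S.M n < S.M n + i * S.M n := by omega
    _ = (i + 1) * S.M n := by ring
    _ ≤ S.p n * S.M n := Nat.mul_le_mul_right _ hi
    _ = S.M n * S.p n := Nat.mul_comm _ _

theorem off_zero : ∀ n, S.off n 0 = 0
  | 0 => rfl
  | n + 1 => by rw [off_succ, Nat.zero_mod, Nat.zero_div, off_zero n, S.s_zero]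

theorem off_last : ∀ n, S.off n (S.M n - 1) + 1 = S.h n
  | 0 => rfl
  | n + 1 => by
      obtain ⟨N, hN⟩ := Nat.exists_eq_add_of_le (S.p_pos n)
      have hM := S.M_pos n
      have e : S.M (n + 1) - 1 = S.M n - 1 + N * S.M n := by
        have : S.M (n + 1) = S.M n + N * S.M n := by rw [M_succ, hN]; ring
        omega
      rw [off_succ, h_succ, e, Nat.add_mul_mod_self_right, Nat.mod_eq_of_lt (by omega),
        Nat.add_mul_div_right _ _ hM, Nat.div_eq_of_lt (by omega : S.M n - 1 < S.M n), Nat.zero_add,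
        show S.p n - 1 = N by omega]
      have := off_last n
      omega

theorem off_lt_succ : ∀ n J, J + 1 < S.M n → S.off n J < S.off n (J + 1)
  | 0, J, hJ => by simp [M, radix] at hJ
  | n + 1, J, hJ => by
      have hM := S.M_pos n
      have hr := Nat.mod_lt J hM
      rcases Nat.lt_or_ge (J % S.M n + 1) (S.M n) with h | h
      · have e : J + 1 = J % S.M n + 1 + J / S.M n * S.M n := by
          have := Nat.mod_add_div' J (S.M n); omega
        rw [off_succ, off_succ, e, Nat.add_mul_mod_self_right, Nat.mod_eq_of_lt h,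
          Nat.add_mul_div_right _ _ hM, Nat.div_eq_of_lt h, Nat.zero_add]
        have := off_lt_succ n _ h
        omega
      · have e : J + 1 = 0 + (J / S.M n + 1) * S.M n := by
          have := Nat.mod_add_div' J (S.M n); rw [Nat.add_mul]; omega
        have hq : J / S.M n + 1 < S.p n := by
          by_contra hc
          have h1 : S.p n * S.M n ≤ (J / S.M n + 1) * S.M n :=
            Nat.mul_le_mul_right _ (not_lt.1 hc)
          rw [M_succ, mul_comm] at hJ
          omega
        rw [off_succ, off_succ, e, Nat.add_mul_mod_self_right, Nat.zero_mod,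
          Nat.add_mul_div_right _ _ hM, Nat.zero_div, Nat.zero_add, off_zero,
          show J % S.M n = S.M n - 1 by omega]
        have h1 := S.off_last n
        have h2 : S.s n (J / S.M n) + S.h n ≤ S.s n (J / S.M n + 1) := S.gap n _ hq
        omega

theorem off_lt_of_lt {n J J' : ℕ} (hlt : J < J') (hJ' : J' < S.M n) :
    S.off n J < S.off n J' := by
  induction J', hlt using Nat.le_induction with
  | base => exact S.off_lt_succ n J hJ'
  | succ J' _ ih => exact (ih (by omega)).trans (S.off_lt_succ n J' hJ')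

/-- The part of the roof above the base piece `J` inside column `n`. -/
def rt (n J : ℕ) : ℕ := if J + 1 < S.M n then S.off n (J + 1) - S.off n J else 1

theorem rt_pos (n J : ℕ) : 0 < S.rt n J := by
  unfold rt
  split_ifs with h
  · exact Nat.sub_pos_of_lt (S.off_lt_succ n J h)
  · exact Nat.one_pos

theorem off_add_rt_le {n J : ℕ} (hJ : J + 1 < S.M n) :
    S.off n J + S.rt n J = S.off n (J + 1) := by
  rw [rt, if_pos hJ]
  have := S.off_lt_succ n J hJ
  omega

theorem rt_last {n J : ℕ} (hJ : S.M n ≤ J + 1) : S.rt n J = 1 := if_neg (not_lt.2 hJ)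

theorem pos_lt {n J i : ℕ} (hJ : J < S.M n) (hi : i < S.rt n J) : S.off n J + i < S.h n := by
  have h2 := S.off_last n
  rcases Nat.lt_or_ge (J + 1) (S.M n) with h | h
  · have h1 := S.off_add_rt_le h
    rcases Nat.lt_or_ge (J + 1) (S.M n - 1) with h' | h'
    · have := S.off_lt_of_lt (n := n) (J' := S.M n - 1) h' (by omega)
      omega
    · rw [show S.M n - 1 = J + 1 by omega] at h2
      omega
  · rw [S.rt_last h] at hi
    rw [show S.M n - 1 = J by omega] at h2
    omega

theorem pos_inj {n J i J' i' : ℕ} (hJ : J < S.M n) (hJ' : J' < S.M n) (hi : i < S.rt n J)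
    (hi' : i' < S.rt n J') (he : S.off n J + i = S.off n J' + i') : J = J' ∧ i = i' := by
  have key : ∀ {a b c d : ℕ}, a < b → b < S.M n → c < S.rt n a →
      S.off n a + c ≠ S.off n b + d := by
    intro a b c d hab hb hc heq
    have h1 := S.off_add_rt_le (J := a) (by omega : a + 1 < S.M n)
    rcases Nat.lt_or_ge (a + 1) b with h' | h'
    · have := S.off_lt_of_lt h' hb
      omega
    · rw [show b = a + 1 by omega] at heq
      omega
  rcases lt_trichotomy J J' with h | h | h
  · exact absurd he (key h hJ' hi)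
  · subst h; exact ⟨rfl, by omega⟩
  · exact absurd he.symm (key h hJ hi')

theorem exists_pos {n j : ℕ} (hj : j < S.h n) :
    ∃ J i, J < S.M n ∧ i < S.rt n J ∧ S.off n J + i = j := by
  have hM := S.M_pos n
  have hP : S.off n 0 ≤ j := by rw [S.off_zero]; exact Nat.zero_le _
  set J := Nat.findGreatest (fun J => S.off n J ≤ j) (S.M n - 1) with hJdef
  have hJle : J ≤ S.M n - 1 := Nat.findGreatest_le _
  have hJs : S.off n J ≤ j :=
    Nat.findGreatest_spec (P := fun J => S.off n J ≤ j) (Nat.zero_le _) hP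
  refine ⟨J, j - S.off n J, by omega, ?_, by omega⟩
  rcases Nat.lt_or_ge (J + 1) (S.M n) with h | h
  · have h1 := S.off_add_rt_le h
    have h2 : ¬ S.off n (J + 1) ≤ j :=
      Nat.findGreatest_is_greatest (P := fun J => S.off n J ≤ j) (n := S.M n - 1) (k := J + 1) (by omega) (by omega)
    omega
  · have h2 := S.off_last n
    rw [show S.M n - 1 = J by omega] at h2
    rw [S.rt_last h]
    omega

theorem rt_succ_eq {n J : ℕ} (hJ : J < S.M (n + 1)) (hr : J % S.M n + 1 < S.M n) :
    J + 1 < S.M (n + 1) ∧ S.rt (n + 1) J = S.rt n (J % S.M n) := by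
  have hM := S.M_pos n
  have hq := S.div_lt hJ
  have e : J + 1 = J % S.M n + 1 + J / S.M n * S.M n := by
    have := Nat.mod_add_div' J (S.M n); omega
  have h1 : J + 1 < S.M (n + 1) := by
    have h2 : (J / S.M n + 1) * S.M n ≤ S.p n * S.M n := Nat.mul_le_mul_right _ hq
    rw [Nat.add_mul, Nat.one_mul] at h2
    rw [M_succ, mul_comm]
    omega
  refine ⟨h1, ?_⟩
  rw [rt, rt, if_pos h1, if_pos hr, off_succ, off_succ, e, Nat.add_mul_mod_self_right,
    Nat.mod_eq_of_lt hr, Nat.add_mul_div_right _ _ hM, Nat.div_eq_of_lt hr, Nat.zero_add]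
  omega

theorem rt_le_succ {n J : ℕ} (hJ : J < S.M (n + 1)) :
    S.rt n (J % S.M n) ≤ S.rt (n + 1) J := by
  rcases Nat.lt_or_ge (J % S.M n + 1) (S.M n) with h | h
  · rw [(S.rt_succ_eq hJ h).2]
  · rw [S.rt_last h]
    exact S.rt_pos _ _

end Stack

end Vale.Agent.P130.RankOne
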