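import Vale.Agent.P130.RankOne.Space

/-! # P130 — the rank-one map as a tower over the odometer, levels and invariant probability -/

noncomputable section

open MeasureTheory MeasurableSpace Set Filter
open scoped ENNReal Topology

namespace Vale.Agent.P130.RankOne

variable {S : Stack}

open scoped Classical in
/-- The number of points of the tower above `x`. -/
def roof (x : Om S) : ℕ :=
  if h : ∃ n, x.1 n + 1 < S.M n then S.rt (Nat.find h) (x.1 (Nat.find h)) else 1

theorem rt_stable (x : Om S) {n m : ℕ} (hnm : n ≤ m) (h : x.1 n + 1 < S.M n) :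
    x.1 m + 1 < S.M m ∧ S.rt m (x.1 m) = S.rt n (x.1 n) := by
  induction m, hnm using Nat.le_induction with
  | base => exact ⟨h, rfl⟩
  | succ m _ ih =>
    have e := (x.2 m).2
    have := S.rt_succ_eq (x.lt (m + 1)) (by rw [e]; exact ih.1)
    rw [e] at this
    exact ⟨this.1, this.2.trans ih.2⟩

theorem roof_eq (x : Om S) {n : ℕ} (h : x.1 n + 1 < S.M n) : roof x = S.rt n (x.1 n) := by
  classical
  have he : ∃ n, x.1 n + 1 < S.M n := ⟨n, h⟩
  rw [roof, dif_pos he, (rt_stable x (Nat.find_le (h := he) h) (Nat.find_spec he)).2]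

theorem roof_pos (x : Om S) : 0 < roof x := by
  unfold roof
  split_ifs
  · exact S.rt_pos _ _
  · exact Nat.one_pos

theorem rt_le_roof (x : Om S) (n : ℕ) : S.rt n (x.1 n) ≤ roof x := by
  rcases Nat.lt_or_ge (x.1 n + 1) (S.M n) with h | h
  · rw [roof_eq x h]
  · rw [S.rt_last h]; exact roof_pos x

theorem rt_mono (x : Om S) {n m : ℕ} (hnm : n ≤ m) : S.rt n (x.1 n) ≤ S.rt m (x.1 m) := by
  induction m, hnm using Nat.le_induction with
  | base => exact le_rfl
  | succ m _ ih => exact ih.trans (by rw [← (x.2 m).2]; exact S.rt_le_succ (x.lt (m + 1)))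

theorem exists_rt_eq_roof (x : Om S) : ∃ N, ∀ n, N ≤ n → S.rt n (x.1 n) = roof x := by
  classical
  by_cases h : ∃ n, x.1 n + 1 < S.M n
  · obtain ⟨N, hN⟩ := h
    exact ⟨N, fun n hn => (rt_stable x hn hN).2.trans (roof_eq x hN).symm⟩
  · refine ⟨0, fun n _ => ?_⟩
    rw [roof, dif_neg h]
    push Not at h
    exact S.rt_last (h n)

theorem measurable_roof : Measurable (roof : Om S → ℕ) := by
  refine measurable_to_countable' fun c => ?_
  have e : (roof : Om S → ℕ) ⁻¹' {c} =
      ⋃ N : ℕ, ⋂ n : ℕ, {x : Om S | N ≤ n → S.rt n (x.1 n) = c} := by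
    ext x
    simp only [mem_preimage, mem_singleton_iff, mem_iUnion, mem_iInter, mem_ofPred_eq]
    obtain ⟨N₀, hN₀⟩ := exists_rt_eq_roof x
    constructor
    · intro h
      exact ⟨N₀, fun n hn => (hN₀ n hn).trans h⟩
    · rintro ⟨N, hN⟩
      rw [← hN₀ (max N N₀) (le_max_right _ _), hN (max N N₀) (le_max_left _ _)]
  rw [e]
  refine MeasurableSet.iUnion fun N => MeasurableSet.iInter fun n => ?_
  exact Om.measurable_coord n (MeasurableSet.of_discrete (s := {J : ℕ | N ≤ n → S.rt n J = c}))

variable (S)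

theorem measurableSet_tower : MeasurableSet {q : Om S × ℕ | q.2 < roof q.1} :=
  measurableSet_lt measurable_snd (measurable_roof.comp measurable_fst)

/-- The phase space: the tower over the odometer. -/
abbrev Space : Type := {q : Om S × ℕ // q.2 < roof q.1}

instance : StandardBorelSpace (Space S) :=
  MeasurableSet.standardBorel (s := {q : Om S × ℕ | q.2 < roof q.1}) (measurableSet_tower S)

variable {S}

/-- One step forwards. -/
def step (q : Om S × ℕ) : Om S × ℕ :=
  if q.2 + 1 < roof q.1 then (q.1, q.2 + 1) else (q.1.next, 0)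

/-- One step backwards. -/
def back (q : Om S × ℕ) : Om S × ℕ :=
  if 0 < q.2 then (q.1, q.2 - 1) else (q.1.prev, roof q.1.prev - 1)

theorem step_mem {q : Om S × ℕ} (_hq : q.2 < roof q.1) : (step q).2 < roof (step q).1 := by
  unfold step
  split_ifs with h
  · exact h
  · exact roof_pos _

theorem back_mem {q : Om S × ℕ} (hq : q.2 < roof q.1) : (back q).2 < roof (back q).1 := by
  unfold back
  split_ifs with h
  · show q.2 - 1 < roof q.1; omega
  · have := roof_pos q.1.prev
    show roof q.1.prev - 1 < roof q.1.prev; omega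

theorem back_step {q : Om S × ℕ} (hq : q.2 < roof q.1) : back (step q) = q := by
  obtain ⟨x, i⟩ := q
  dsimp only at hq
  unfold step
  split_ifs with h
  · rw [back, if_pos (Nat.succ_pos i)]; rfl
  · rw [back, if_neg (Nat.lt_irrefl 0)]
    show (x.next.prev, roof x.next.prev - 1) = (x, i)
    dsimp only at h
    rw [Om.prev_next]
    exact Prod.ext rfl (show roof x - 1 = i by omega)

theorem step_back {q : Om S × ℕ} (hq : q.2 < roof q.1) : step (back q) = q := by
  obtain ⟨x, i⟩ := q
  dsimp only at hq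
  unfold back
  split_ifs with h
  · dsimp only at h
    rw [step, if_pos (show i - 1 + 1 < roof x by omega)]
    exact Prod.ext rfl (show i - 1 + 1 = i by omega)
  · dsimp only at h
    have := roof_pos x.prev
    rw [step, if_neg (show ¬ roof x.prev - 1 + 1 < roof x.prev by omega)]
    exact Prod.ext (Om.next_prev x) (show 0 = i by omega)

theorem measurable_step : Measurable (step : Om S × ℕ → Om S × ℕ) :=
  Measurable.ite (measurableSet_lt (measurable_snd.add_const 1) (measurable_roof.comp measurable_fst))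
    (measurable_fst.prodMk (measurable_snd.add_const 1))
    ((Om.measurable_next.comp measurable_fst).prodMk measurable_const)

theorem measurable_back : Measurable (back : Om S × ℕ → Om S × ℕ) :=
  Measurable.ite (measurableSet_lt measurable_const measurable_snd)
    (measurable_fst.prodMk ((Measurable.of_discrete (f := fun i : ℕ => i - 1)).comp measurable_snd))
    ((Om.measurable_prev.comp measurable_fst).prodMk
      ((Measurable.of_discrete (f := fun i : ℕ => i - 1)).comp
        (measurable_roof.comp (Om.measurable_prev.comp measurable_fst))))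

variable (S)

/-- The rank-one transformation. -/
def shift : Space S ≃ᵐ Space S where
  toFun q := ⟨step q.1, step_mem q.2⟩
  invFun q := ⟨back q.1, back_mem q.2⟩
  left_inv q := Subtype.ext (back_step q.2)
  right_inv q := Subtype.ext (step_back q.2)
  measurable_toFun := (measurable_step.comp measurable_subtype_coe).subtype_mk
  measurable_invFun := (measurable_back.comp measurable_subtype_coe).subtype_mk

theorem shift_val (q : Space S) : (shift S q).1 = step q.1 := rfl

/-- The level `j` of column `n`. -/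
def lvl (n j : ℕ) : Set (Space S) :=
  {q | q.1.2 < S.rt n (q.1.1.1 n) ∧ S.off n (q.1.1.1 n) + q.1.2 = j}

/-- The column `n`. -/
def column (n : ℕ) : Set (Space S) := {q | q.1.2 < S.rt n (q.1.1.1 n)}

theorem measurable_base (n : ℕ) : Measurable fun q : Space S => q.1.1.1 n :=
  (Om.measurable_coord n).comp (measurable_fst.comp measurable_subtype_coe)

theorem measurable_floor_no : Measurable fun q : Space S => q.1.2 :=
  measurable_snd.comp measurable_subtype_coe

theorem measurableSet_lvl (n j : ℕ) : MeasurableSet (lvl S n j) :=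
  ((measurable_base S n).prodMk (measurable_floor_no S))
    (MeasurableSet.of_discrete (s := {u : ℕ × ℕ | u.2 < S.rt n u.1 ∧ S.off n u.1 + u.2 = j}))

theorem lvl_eq_empty {n j : ℕ} (hj : S.h n ≤ j) : lvl S n j = ∅ := by
  ext q
  simp only [lvl, mem_ofPred_eq, mem_empty_iff_false, iff_false, not_and]
  intro h1 h2
  have := S.pos_lt (q.1.1.lt n) h1
  omega

theorem disjoint_lvl {n j j' : ℕ} (h : j ≠ j') : Disjoint (lvl S n j) (lvl S n j') :=
  Set.disjoint_left.2 fun _ hq hq' => h (hq.2.symm.trans hq'.2)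

theorem column_eq (n : ℕ) : column S n = ⋃ j ∈ Finset.range (S.h n), lvl S n j := by
  ext q
  simp only [column, lvl, mem_ofPred_eq, mem_iUnion, Finset.mem_range, exists_prop]
  exact ⟨fun h => ⟨_, S.pos_lt (q.1.1.lt n) h, h, rfl⟩, fun ⟨_, _, h, _⟩ => h⟩

theorem column_mono : Monotone (column S) := fun n m hnm q hq =>
  show q.1.2 < _ from lt_of_lt_of_le (show q.1.2 < S.rt n (q.1.1.1 n) from hq) (rt_mono q.1.1 hnm)

theorem iUnion_column : ⋃ n, column S n = univ := by
  refine eq_univ_iff_forall.2 fun q => ?_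
  obtain ⟨N, hN⟩ := exists_rt_eq_roof q.1.1
  exact mem_iUnion.2 ⟨N, show q.1.2 < S.rt N _ by rw [hN N le_rfl]; exact q.2⟩

theorem div_eq_of_consistent (x : Om S) (n : ℕ) :
    x.1 (n + 1) = x.1 n + x.1 (n + 1) / S.M n * S.M n := by
  conv_lhs => rw [← Nat.mod_add_div' (x.1 (n + 1)) (S.M n), (x.2 n).2]

/-- A level is the disjoint union of its copies in the next column. -/
theorem lvl_refine {n j : ℕ} (hj : j < S.h n) :
    lvl S n j = ⋃ i ∈ Finset.range (S.p n), lvl S (n + 1) (S.s n i + j) := by
  ext q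
  simp only [lvl, mem_ofPred_eq, mem_iUnion, Finset.mem_range, exists_prop]
  set x := q.1.1
  have hdiv := S.div_lt (x.lt (n + 1))
  have hoff : S.off (n + 1) (x.1 (n + 1)) = S.off n (x.1 n) + S.s n (x.1 (n + 1) / S.M n) := by
    rw [Stack.off_succ, (x.2 n).2]
  constructor
  · rintro ⟨h1, h2⟩
    exact ⟨_, hdiv, lt_of_lt_of_le h1 (rt_mono x n.le_succ), by rw [hoff]; omega⟩
  · rintro ⟨i, hi, h1, h2⟩
    obtain ⟨J', i', hJ', hi', he⟩ := S.exists_pos hj
    have hK := S.extend_lt hJ' hi
    have hmod : (J' + i * S.M n) % S.M n = J' := by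
      rw [Nat.add_mul_mod_self_right, Nat.mod_eq_of_lt hJ']
    have hpos : S.off (n + 1) (J' + i * S.M n) = S.off n J' + S.s n i := by
      rw [Stack.off_succ, hmod, Nat.add_mul_div_right _ _ (S.M_pos n), Nat.div_eq_of_lt hJ',
        Nat.zero_add]
    have hrt : i' < S.rt (n + 1) (J' + i * S.M n) :=
      lt_of_lt_of_le hi' (hmod ▸ S.rt_le_succ hK :)
    obtain ⟨e1, e2⟩ := S.pos_inj (x.lt (n + 1)) hK h1 hrt (by rw [hpos, h2]; omega)
    have e3 : x.1 n = J' := by rw [← (x.2 n).2, e1, hmod]
    rw [e3, e2]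
    exact ⟨hi', he⟩

theorem shift_mem_lvl {n j : ℕ} (hj : j + 1 < S.h n) (q : Space S) :
    shift S q ∈ lvl S n (j + 1) ↔ q ∈ lvl S n j := by
  obtain ⟨⟨x, i⟩, hq⟩ := q
  simp only [lvl, mem_ofPred_eq, shift_val]
  dsimp only at hq ⊢
  by_cases h : i + 1 < roof x
  · rw [step, if_pos (show ((x, i) : Om S × ℕ).2 + 1 < roof x from h)]
    dsimp only
    constructor
    · rintro ⟨h1, h2⟩; exact ⟨by omega, by omega⟩
    · rintro ⟨h1, h2⟩
      refine ⟨?_, by omega⟩
      rcases Nat.lt_or_ge (x.1 n + 1) (S.M n) with hx | hx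
      · rw [← roof_eq x hx]; exact h
      · exfalso
        rw [S.rt_last hx] at h1
        have hM := x.lt n
        have := S.off_last n
        rw [show S.M n - 1 = x.1 n by omega] at this
        omega
  · rw [step, if_neg (show ¬ ((x, i) : Om S × ℕ).2 + 1 < roof x from h)]
    dsimp only
    rcases Nat.lt_or_ge (x.1 n + 1) (S.M n) with hx | hx
    · have h1 := S.off_add_rt_le hx
      have h2 := roof_eq x hx
      rw [Om.next_coord hx]
      constructor
      · rintro ⟨-, h4⟩; exact ⟨by omega, by omega⟩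
      · rintro ⟨h3, h4⟩; exact ⟨S.rt_pos _ _, by omega⟩
    · rw [Om.next_coord_last hx, S.off_zero]
      constructor
      · rintro ⟨_, h4⟩; omega
      · rintro ⟨h3, h4⟩
        exfalso
        rw [S.rt_last hx] at h3
        have hM := x.lt n
        have := S.off_last n
        rw [show S.M n - 1 = x.1 n by omega] at this
        omega

/-- The measure on the tower before normalisation. -/
def mu0 : Measure (Space S) := Measure.comap Subtype.val ((nu S).prod Measure.count)

theorem mu0_apply {A : Set (Space S)} :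
    mu0 S A = (nu S).prod Measure.count (Subtype.val '' A) :=
  (MeasurableEmbedding.subtype_coe (measurableSet_tower S)).comap_apply _ _

theorem mu0_lvl {n j : ℕ} (hj : j < S.h n) :
    mu0 S (lvl S n j) = ENNReal.ofReal ((S.M n : ℝ)⁻¹) := by
  obtain ⟨J, i, hJ, hi, he⟩ := S.exists_pos hj
  have e : Subtype.val '' lvl S n j = {x : Om S | x.1 n = J} ×ˢ ({i} : Set ℕ) := by
    ext ⟨x, i'⟩
    constructor
    · rintro ⟨⟨⟨x', i''⟩, hq⟩, ⟨h1, h2⟩, heq⟩
      cases heq
      exact S.pos_inj (x.lt n) hJ h1 hi (h2.trans he.symm)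
    · rintro ⟨hx, hi'⟩
      change x.1 n = J at hx
      change i' = i at hi'
      subst hx hi'
      exact ⟨⟨(x, i'), lt_of_lt_of_le hi (rt_le_roof x n)⟩, ⟨hi, he⟩, rfl⟩
  rw [mu0_apply, e, Measure.prod_prod, Measure.count_singleton, mul_one, nu_cyl S hJ]

theorem mu0_column (n : ℕ) :
    mu0 S (column S n) = (S.h n : ℝ≥0∞) * ENNReal.ofReal ((S.M n : ℝ)⁻¹) := by
  rw [column_eq, measure_biUnion_finset (fun a _ b _ hab => disjoint_lvl S hab)
      (fun _ _ => measurableSet_lvl S _ _),
    Finset.sum_congr rfl (fun j hj => mu0_lvl S (Finset.mem_range.1 hj)), Finset.sum_const,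
    Finset.card_range, nsmul_eq_mul]

theorem one_le_mu0_univ : 1 ≤ mu0 S univ := by
  refine le_trans (le_of_eq ?_) (measure_mono (subset_univ (column S 0)))
  rw [mu0_column]
  simp [Stack.h, Stack.M, hgt, radix]

theorem mu0_univ_ne_top : mu0 S univ ≠ ∞ := by
  obtain ⟨C, hC⟩ := S.bdd
  refine ne_top_of_le_ne_top (ENNReal.natCast_ne_top C) ?_
  rw [← iUnion_column S, (column_mono S).measure_iUnion]
  refine iSup_le fun n => ?_
  rw [mu0_column, ← ENNReal.ofReal_natCast, ← ENNReal.ofReal_mul (Nat.cast_nonneg _),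
    ← ENNReal.ofReal_natCast C]
  refine ENNReal.ofReal_le_ofReal ?_
  rw [← div_eq_mul_inv, div_le_iff₀ (by exact_mod_cast S.M_pos n)]
  exact_mod_cast hC n

/-- The invariant probability. -/
def mu : Measure (Space S) := (mu0 S univ)⁻¹ • mu0 S

instance isProb_mu : IsProbabilityMeasure (mu S) :=
  ⟨by
    rw [mu, Measure.smul_apply, smul_eq_mul,
      ENNReal.inv_mul_cancel (zero_lt_one.trans_le (one_le_mu0_univ S)).ne' (mu0_univ_ne_top S)]⟩

/-- The measure of a level of column `n`, times `M n`. -/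
def cst : ℝ := ((mu0 S univ).toReal)⁻¹

theorem cst_pos : 0 < cst S :=
  inv_pos.2 (ENNReal.toReal_pos (zero_lt_one.trans_le (one_le_mu0_univ S)).ne' (mu0_univ_ne_top S))

theorem mu_lvl {n j : ℕ} (hj : j < S.h n) :
    mu S (lvl S n j) = ENNReal.ofReal (cst S / S.M n) := by
  rw [mu, Measure.smul_apply, smul_eq_mul, mu0_lvl S hj, cst, div_eq_mul_inv,
    ENNReal.ofReal_mul (inv_nonneg.2 ENNReal.toReal_nonneg), ← ENNReal.toReal_inv,
    ENNReal.ofReal_toReal]
  exact ENNReal.inv_ne_top.2 (zero_lt_one.trans_le (one_le_mu0_univ S)).ne'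

theorem mu_lvl_real {n j : ℕ} (hj : j < S.h n) : (mu S).real (lvl S n j) = cst S / S.M n := by
  rw [measureReal_def, mu_lvl S hj,
    ENNReal.toReal_ofReal (div_nonneg (cst_pos S).le (Nat.cast_nonneg _))]

theorem mu_column_real (n : ℕ) : (mu S).real (column S n) = cst S * S.h n / S.M n := by
  rw [measureReal_def, mu, Measure.smul_apply, smul_eq_mul, mu0_column, ENNReal.toReal_mul,
    ENNReal.toReal_mul, ENNReal.toReal_natCast,
    ENNReal.toReal_ofReal (inv_nonneg.2 (Nat.cast_nonneg _)), ENNReal.toReal_inv, cst]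
  ring

theorem tendsto_column :
    Tendsto (fun n => cst S * S.h n / S.M n) atTop (𝓝 1) := by
  have h1 : Tendsto (fun n => (mu S (column S n)).toReal) atTop (𝓝 1) := by
    have h := tendsto_measure_iUnion_atTop (μ := mu S) (column_mono S)
    rw [iUnion_column, measure_univ] at h
    exact (ENNReal.tendsto_toReal ENNReal.one_ne_top).comp h
  exact h1.congr fun n => mu_column_real S n

/-- The π-system of levels. -/
def lvls : Set (Set (Space S)) := insert ∅ (range fun u : ℕ × ℕ => lvl S u.1 u.2)

theorem lvl_dichotomy {n m : ℕ} (hnm : n ≤ m) (j k : ℕ) :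
    lvl S n j ∩ lvl S m k = lvl S m k ∨ lvl S n j ∩ lvl S m k = ∅ := by
  by_cases hne : (lvl S n j ∩ lvl S m k).Nonempty
  · refine Or.inl (inter_eq_right.2 fun q hq => ?_)
    obtain ⟨q₀, h0, h0'⟩ := hne
    obtain ⟨e1, e2⟩ := S.pos_inj (q.1.1.lt m) (q₀.1.1.lt m) hq.1 h0'.1 (hq.2.trans h0'.2.symm)
    show q.1.2 < S.rt n (q.1.1.1 n) ∧ S.off n (q.1.1.1 n) + q.1.2 = j
    rw [← q.1.1.mod_eq hnm, e1, q₀.1.1.mod_eq hnm, e2]
    exact h0
  · exact Or.inr (not_nonempty_iff_eq_empty.1 hne)

theorem isPiSystem_lvls : IsPiSystem (lvls S) := by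
  have key : ∀ n m, n ≤ m → ∀ j k, lvl S n j ∩ lvl S m k ∈ lvls S := fun n m h j k => by
    rcases lvl_dichotomy S h j k with e | e <;> rw [e]
    · exact Or.inr ⟨(m, k), rfl⟩
    · exact Or.inl rfl
  rintro A hA B hB hne
  rcases hA with rfl | ⟨⟨n, j⟩, rfl⟩
  · simp at hne
  rcases hB with rfl | ⟨⟨m, k⟩, rfl⟩
  · simp at hne
  rcases le_total n m with h | h
  · exact key n m h j k
  · rw [inter_comm]; exact key m n h k j

theorem generateFrom_lvls :
    (inferInstance : MeasurableSpace (Space S)) = generateFrom (lvls S) := by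
  refine le_antisymm ?_ (generateFrom_le ?_)
  · have hmem : ∀ n j, MeasurableSet[generateFrom (lvls S)] (lvl S n j) :=
      fun n j => measurableSet_generateFrom (Or.inr ⟨(n, j), rfl⟩)
    have hpair : ∀ n J i, MeasurableSet[generateFrom (lvls S)]
        {q : Space S | q.1.1.1 n = J ∧ q.1.2 = i} := by
      intro n J i
      have : {q : Space S | q.1.1.1 n = J ∧ q.1.2 = i} =
          ⋃ m : ℕ, ⋃ K : ℕ, ⋃ _ : n ≤ m ∧ K < S.M m ∧ K % S.M n = J ∧ i < S.rt m K,
            lvl S m (S.off m K + i) := by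
        ext q
        simp only [mem_ofPred_eq, mem_iUnion, lvl, exists_prop]
        constructor
        · rintro ⟨h1, h2⟩
          obtain ⟨N, hN⟩ := exists_rt_eq_roof q.1.1
          have h3 : q.1.2 < S.rt (max n N) (q.1.1.1 (max n N)) := by
            rw [hN _ (le_max_right _ _)]; exact q.2
          exact ⟨max n N, q.1.1.1 (max n N), ⟨le_max_left _ _, q.1.1.lt _,
            by rw [q.1.1.mod_eq (le_max_left n N), h1], h2 ▸ h3⟩, h3, by rw [h2]⟩
        · rintro ⟨m, K, ⟨h1, h2, h3, h4⟩, h5, h6⟩
          obtain ⟨e1, e2⟩ := S.pos_inj (q.1.1.lt m) h2 h5 h4 h6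
          exact ⟨by rw [← q.1.1.mod_eq h1, e1, h3], e2⟩
      rw [this]
      exact @MeasurableSet.iUnion _ _ (generateFrom (lvls S)) _ _ fun m =>
        @MeasurableSet.iUnion _ _ (generateFrom (lvls S)) _ _ fun K =>
          @MeasurableSet.iUnion _ _ (generateFrom (lvls S)) _ _ fun _ => hmem _ _
    have hbase : ∀ n, Measurable[generateFrom (lvls S)] fun q : Space S => q.1.1.1 n := fun n =>
      @measurable_to_countable' ℕ (Space S) _ _ (generateFrom (lvls S)) _ fun J => by
        have : (fun q : Space S => q.1.1.1 n) ⁻¹' {J} =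
            ⋃ i : ℕ, {q : Space S | q.1.1.1 n = J ∧ q.1.2 = i} := by
          ext q; simp
        exact this ▸ @MeasurableSet.iUnion _ _ (generateFrom (lvls S)) _ _ fun i => hpair n J i
    have hfloor : Measurable[generateFrom (lvls S)] fun q : Space S => q.1.2 :=
      @measurable_to_countable' ℕ (Space S) _ _ (generateFrom (lvls S)) _ fun i => by
        have : (fun q : Space S => q.1.2) ⁻¹' {i} =
            {q : Space S | q.1.1.1 0 = 0 ∧ q.1.2 = i} := by
          ext q
          have h0 : q.1.1.1 0 = 0 := Nat.lt_one_iff.1 (q.1.1.lt 0)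
          simp [h0]
        exact this ▸ hpair 0 0 i
    have hfst : Measurable[generateFrom (lvls S)] fun q : Space S => q.1.1 :=
      @Measurable.subtype_mk (Space S) (ℕ → ℕ) (generateFrom (lvls S)) _
        (fun x => ∀ n, x n < S.M n ∧ x (n + 1) % S.M n = x n) _
        (@measurable_pi_lambda (Space S) ℕ (fun _ => ℕ) (generateFrom (lvls S)) _ _ hbase)
        (fun q => q.1.1.2)
    have hval : Measurable[generateFrom (lvls S)] (Subtype.val : Space S → Om S × ℕ) :=
      hfst.prodMk hfloor
    exact hval.comap_le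
  · rintro A (rfl | ⟨u, rfl⟩)
    · exact MeasurableSet.empty
    · exact measurableSet_lvl S _ _

theorem mu0_preimage_bottom (n : ℕ) :
    mu0 S (shift S ⁻¹' lvl S n 0) = ENNReal.ofReal ((S.M n : ℝ)⁻¹) := by
  have e : Subtype.val '' (shift S ⁻¹' lvl S n 0) =
      {u : Om S × ℕ | u.1.1 n = S.M n - 1 ∧ u.2 + 1 = roof u.1} := by
    ext ⟨x, i⟩
    constructor
    · rintro ⟨⟨⟨x', i''⟩, hi⟩, hmem, heq⟩
      cases heq
      obtain ⟨h1, h2⟩ : (step (x, i)).2 < S.rt n ((step (x, i)).1.1 n) ∧
          S.off n ((step (x, i)).1.1 n) + (step (x, i)).2 = 0 := hmem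
      show x.1 n = S.M n - 1 ∧ i + 1 = roof x
      change i < roof x at hi
      by_cases h : i + 1 < roof x
      · rw [step, if_pos (show ((x, i) : Om S × ℕ).2 + 1 < roof ((x, i) : Om S × ℕ).1 from h)] at h2
        change S.off n (x.1 n) + (i + 1) = 0 at h2
        omega
      · rw [step, if_neg (show ¬ ((x, i) : Om S × ℕ).2 + 1 < roof ((x, i) : Om S × ℕ).1 from h)] at h2
        change S.off n (x.next.1 n) + 0 = 0 at h2
        refine ⟨?_, by omega⟩
        by_contra hne
        have hx : x.1 n + 1 < S.M n := by have := x.lt n; omega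
        rw [Om.next_coord hx] at h2
        have := S.off_lt_of_lt (n := n) (J := 0) (J' := x.1 n + 1) (Nat.succ_pos _) hx
        omega
    · rintro ⟨h1, h2⟩
      change x.1 n = S.M n - 1 at h1
      change i + 1 = roof x at h2
      have hnext : x.next.1 n = 0 := Om.next_coord_last (by have := S.M_pos n; omega)
      refine ⟨⟨(x, i), show i < roof x by omega⟩, ?_, rfl⟩
      show (step (x, i)).2 < S.rt n ((step (x, i)).1.1 n) ∧
          S.off n ((step (x, i)).1.1 n) + (step (x, i)).2 = 0
      rw [step, if_neg (show ¬ ((x, i) : Om S × ℕ).2 + 1 < roof x by dsimp only; omega)]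
      dsimp only
      rw [hnext]
      exact ⟨S.rt_pos _ _, by rw [S.off_zero]⟩
  have hm : MeasurableSet {u : Om S × ℕ | u.1.1 n = S.M n - 1 ∧ u.2 + 1 = roof u.1} :=
    (((Om.measurable_coord n).comp measurable_fst) (measurableSet_singleton _)).inter
      (measurableSet_eq_fun (measurable_snd.add_const 1) (measurable_roof.comp measurable_fst))
  rw [mu0_apply, e, Measure.prod_apply hm]
  have hfib : ∀ x : Om S, Measure.count (Prod.mk x ⁻¹'
      {u : Om S × ℕ | u.1.1 n = S.M n - 1 ∧ u.2 + 1 = roof u.1}) =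
      {x : Om S | x.1 n = S.M n - 1}.indicator (fun _ => (1 : ℝ≥0∞)) x := fun x => by
    by_cases hx : x.1 n = S.M n - 1
    · rw [indicator_of_mem (show x ∈ {x : Om S | x.1 n = S.M n - 1} from hx)]
      have : Prod.mk x ⁻¹' {u : Om S × ℕ | u.1.1 n = S.M n - 1 ∧ u.2 + 1 = roof u.1} =
          {roof x - 1} := by
        ext i
        have := roof_pos x
        simp only [mem_preimage, mem_ofPred_eq, mem_singleton_iff, hx, true_and]
        omega
      rw [this, Measure.count_singleton]
    · rw [indicator_of_notMem (show x ∉ {x : Om S | x.1 n = S.M n - 1} from hx)]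
      have : Prod.mk x ⁻¹' {u : Om S × ℕ | u.1.1 n = S.M n - 1 ∧ u.2 + 1 = roof u.1} = ∅ := by
        ext i; simp [hx]
      rw [this, measure_empty]
  simp only [hfib]
  rw [lintegral_indicator (Om.measurableSet_cyl n _), setLIntegral_one,
    nu_cyl S (by have := S.M_pos n; omega)]

/-- The rank-one transformation preserves the probability. -/
theorem measurePreserving_shift : MeasurePreserving (shift S) (mu S) (mu S) := by
  refine ⟨(shift S).measurable, ?_⟩
  have := Measure.isProbabilityMeasure_map (μ := mu S) (shift S).measurable.aemeasurable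
  refine ext_of_generate_finite (lvls S) (generateFrom_lvls S) (isPiSystem_lvls S) ?_ (by simp)
  rintro A (rfl | ⟨⟨n, j⟩, rfl⟩)
  · simp
  dsimp only
  rw [Measure.map_apply (shift S).measurable (measurableSet_lvl S n j)]
  rcases Nat.lt_or_ge j (S.h n) with hj | hj
  · rcases Nat.eq_zero_or_pos j with rfl | hpos
    · rw [mu, Measure.smul_apply, Measure.smul_apply, mu0_preimage_bottom, mu0_lvl S hj]
    · obtain ⟨j, rfl⟩ : ∃ j', j = j' + 1 := ⟨j - 1, by omega⟩
      rw [show shift S ⁻¹' lvl S n (j + 1) = lvl S n j from ext fun q => shift_mem_lvl S hj q,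
        mu_lvl S (by omega), mu_lvl S hj]
  · rw [lvl_eq_empty S hj, preimage_empty]

instance nullSingleton_mu : NullSingletonClass (mu S) := ⟨fun q => by
  obtain ⟨N, hN⟩ := exists_rt_eq_roof q.1.1
  refine le_antisymm ?_ bot_le
  have hle : ∀ n, N ≤ n → mu S {q} ≤ ENNReal.ofReal (cst S / S.M n) := fun n hn => by
    have h1 : q.1.2 < S.rt n (q.1.1.1 n) := by rw [hN n hn]; exact q.2
    rw [← mu_lvl S (S.pos_lt (q.1.1.lt n) h1)]
    exact measure_mono (singleton_subset_iff.2 ⟨h1, rfl⟩)
  have ht : Tendsto (fun n => ENNReal.ofReal (cst S / S.M n)) atTop (𝓝 ⊥) := by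
    simpa using ENNReal.tendsto_ofReal
      ((tendsto_const_nhds (x := cst S)).div_atTop
        ((tendsto_natCast_atTop_atTop (R := ℝ)).comp S.tendsto_M))
  exact ge_of_tendsto ht (eventually_atTop.2 ⟨N, hle⟩)⟩

/-- An integrable function with vanishing integral over every level vanishes. -/
theorem ae_zero_of_lvl {E : Type*} [NormedAddCommGroup E] [NormedSpace ℝ E] [CompleteSpace E]
    {g : Space S → E} (hg : Integrable g (mu S))
    (h : ∀ n j, j < S.h n → ∫ q in lvl S n j, g q ∂mu S = 0) : g =ᵐ[mu S] 0 := by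
  have hcol : ∀ n, ∫ q in column S n, g q ∂mu S = 0 := fun n => by
    rw [column_eq, integral_biUnion_finset (μ := mu S) (Finset.range (S.h n))
      (fun _ _ => measurableSet_lvl S _ _) (fun a _ b _ hab => disjoint_lvl S hab)
      (fun _ _ => hg.integrableOn)]
    exact Finset.sum_eq_zero fun j hj => h n j (Finset.mem_range.1 hj)
  have hcm : ∀ n, MeasurableSet (column S n) := fun n => by
    rw [column_eq]; exact Finset.measurableSet_biUnion _ fun j _ => measurableSet_lvl S n j
  have htot : ∫ q, g q ∂mu S = 0 := by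
    have h1 := tendsto_setIntegral_of_monotone (μ := mu S) (f := g) hcm (column_mono S)
      hg.integrableOn
    rw [iUnion_column, setIntegral_univ] at h1
    simp only [hcol] at h1
    exact (tendsto_nhds_unique h1 tendsto_const_nhds)
  refine hg.ae_eq_zero_of_forall_setIntegral_eq_zero fun A hA _ => ?_
  refine MeasurableSpace.induction_on_inter (generateFrom_lvls S) (isPiSystem_lvls S)
    (C := fun A _ => ∫ q in A, g q ∂mu S = 0) ?_ ?_ ?_ ?_ A hA
  · simp
  · rintro B (rfl | ⟨⟨n, j⟩, rfl⟩)
    · simp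
    dsimp only
    rcases Nat.lt_or_ge j (S.h n) with hj | hj
    · exact h n j hj
    · rw [lvl_eq_empty S hj]; simp
  · intro B hB hB0
    have := integral_add_compl (μ := mu S) hB hg
    rw [hB0, htot, zero_add] at this
    exact this
  · intro B hd hm h0
    rw [integral_iUnion hm hd hg.integrableOn]
    simp only [h0, tsum_zero]

end Vale.Agent.P130.RankOne
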