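import Vale.Agent.P130.RankOne.Data

/-! # P130 — the mixed radix odometer under a rank-one map and its invariant measure -/

noncomputable section

open MeasureTheory MeasurableSpace Set
open scoped ENNReal

namespace Vale.Agent.P130.RankOne

/-- The odometer space. -/
abbrev Om (S : Stack) : Type :=
  {x : ℕ → ℕ // ∀ n, x n < S.M n ∧ x (n + 1) % S.M n = x n}

instance (S : Stack) : StandardBorelSpace (Om S) :=
  MeasurableSet.standardBorel (s := {x : ℕ → ℕ | ∀ n, x n < S.M n ∧ x (n + 1) % S.M n = x n}) <| by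
    simp only [ofPred_forall]
    refine MeasurableSet.iInter fun n => ?_
    have hm : Measurable fun x : ℕ → ℕ => (x n, x (n + 1)) :=
      (measurable_pi_apply n).prodMk (measurable_pi_apply (n + 1))
    exact hm (MeasurableSet.of_discrete (s := {p : ℕ × ℕ | p.1 < S.M n ∧ p.2 % S.M n = p.1}))

namespace Om

variable {S : Stack}

theorem lt (x : Om S) (n : ℕ) : x.1 n < S.M n := (x.2 n).1

theorem mod_eq (x : Om S) {n m : ℕ} (h : n ≤ m) : x.1 m % S.M n = x.1 n := by
  induction m, h using Nat.le_induction with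
  | base => exact Nat.mod_eq_of_lt (x.lt n)
  | succ m hm ih => rw [← ih, ← (x.2 m).2, Nat.mod_mod_of_dvd _ (S.M_dvd hm)]

theorem measurable_coord (n : ℕ) : Measurable fun x : Om S => x.1 n :=
  (measurable_pi_apply n).comp measurable_subtype_coe

theorem measurableSet_cyl (n j : ℕ) : MeasurableSet {x : Om S | x.1 n = j} :=
  measurable_coord n (measurableSet_singleton j)

theorem measurable_of_coord {α : Type*} [MeasurableSpace α] {f : α → Om S}
    (h : ∀ n, Measurable fun a => (f a).1 n) : Measurable f :=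
  Measurable.subtype_mk (measurable_pi_lambda _ h)

/-- The odometer. -/
def next (x : Om S) : Om S :=
  ⟨fun n => (x.1 n + 1) % S.M n, fun n => ⟨Nat.mod_lt _ (S.M_pos n), by
    rw [Nat.mod_mod_of_dvd _ (S.M_dvd n.le_succ), Nat.add_mod, (x.2 n).2, Nat.add_mod_mod]⟩⟩

theorem pred_aux (S : Stack) (n : ℕ) : (S.M (n + 1) - 1) % S.M n = S.M n - 1 := by
  have h1 := S.M_pos n
  obtain ⟨N, hN⟩ := Nat.exists_eq_add_of_le (S.two_le n)
  have : S.M (n + 1) - 1 = (S.M n - 1) + (N + 1) * S.M n := by
    have e : S.M (n + 1) = S.M n + (N + 1) * S.M n := by rw [Stack.M_succ, hN]; ring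
    omega
  rw [this, Nat.add_mul_mod_self_right, Nat.mod_eq_of_lt (by omega)]

/-- The inverse of the odometer. -/
def prev (x : Om S) : Om S :=
  ⟨fun n => (x.1 n + (S.M n - 1)) % S.M n, fun n => ⟨Nat.mod_lt _ (S.M_pos n), by
    rw [Nat.mod_mod_of_dvd _ (S.M_dvd n.le_succ), Nat.add_mod, (x.2 n).2, pred_aux]⟩⟩

theorem prev_next (x : Om S) : prev (next x) = x := by
  refine Subtype.ext (funext fun n => ?_)
  show ((x.1 n + 1) % S.M n + (S.M n - 1)) % S.M n = x.1 n
  rw [Nat.mod_add_mod, show x.1 n + 1 + (S.M n - 1) = x.1 n + S.M n by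
    have := S.M_pos n; omega, Nat.add_mod_right, Nat.mod_eq_of_lt (x.lt n)]

theorem next_prev (x : Om S) : next (prev x) = x := by
  refine Subtype.ext (funext fun n => ?_)
  show ((x.1 n + (S.M n - 1)) % S.M n + 1) % S.M n = x.1 n
  rw [Nat.mod_add_mod, show x.1 n + (S.M n - 1) + 1 = x.1 n + S.M n by
    have := S.M_pos n; omega, Nat.add_mod_right, Nat.mod_eq_of_lt (x.lt n)]

theorem measurable_next : Measurable (next : Om S → Om S) :=
  measurable_of_coord fun n =>
    (Measurable.of_discrete (f := fun j : ℕ => (j + 1) % S.M n)).comp (measurable_coord n)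

theorem measurable_prev : Measurable (prev : Om S → Om S) :=
  measurable_of_coord fun n =>
    (Measurable.of_discrete (f := fun j : ℕ => (j + (S.M n - 1)) % S.M n)).comp (measurable_coord n)

theorem next_coord {x : Om S} {n : ℕ} (h : x.1 n + 1 < S.M n) : (next x).1 n = x.1 n + 1 :=
  Nat.mod_eq_of_lt h

theorem next_coord_last {x : Om S} {n : ℕ} (h : S.M n ≤ x.1 n + 1) : (next x).1 n = 0 := by
  show (x.1 n + 1) % S.M n = 0
  rw [show x.1 n + 1 = S.M n by have := x.lt n; omega, Nat.mod_self]

end Om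

variable (S : Stack)

/-- The order of the levels read off from the base-point in `[0,1)`. -/
def rho : ℕ → ℕ → ℕ
  | 0, _ => 0
  | n + 1, k => rho n (k / S.p n) + S.M n * (k % S.p n)

/-- The inverse of `rho n`. -/
def unrho : ℕ → ℕ → ℕ
  | 0, _ => 0
  | n + 1, j => unrho n (j % S.M n) * S.p n + j / S.M n


theorem rho_lt : ∀ n k, rho S n k < S.M n
  | 0, _ => one_pos
  | n + 1, k => by
      rw [rho, mul_comm]
      exact S.extend_lt (rho_lt n _) (Nat.mod_lt _ (S.p_pos n))

theorem rho_succ_mod (n k : ℕ) : rho S (n + 1) k % S.M n = rho S n (k / S.p n) := by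
  rw [rho, Nat.add_mul_mod_self_left, Nat.mod_eq_of_lt (rho_lt S n _)]

theorem unrho_lt : ∀ n j, j < S.M n → unrho S n j < S.M n
  | 0, _, _ => one_pos
  | n + 1, j, hj => by
      rw [unrho]
      have h1 := unrho_lt n _ (Nat.mod_lt j (S.M_pos n))
      have h2 : j / S.M n < S.p n := by
        rw [Nat.div_lt_iff_lt_mul (S.M_pos n), mul_comm]; exact hj
      calc unrho S n (j % S.M n) * S.p n + j / S.M n
          < unrho S n (j % S.M n) * S.p n + S.p n := by omega
        _ = (unrho S n (j % S.M n) + 1) * S.p n := by ring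
        _ ≤ S.M n * S.p n := Nat.mul_le_mul_right _ h1

theorem rho_eq_iff : ∀ n k j, k < S.M n → j < S.M n → (rho S n k = j ↔ k = unrho S n j)
  | 0, k, j, hk, hj => by
      simp only [Stack.M, radix, Nat.lt_one_iff] at hk hj
      simp [rho, unrho, hk, hj]
  | n + 1, k, j, hk, hj => by
      have hN := S.p_pos n
      have hM := S.M_pos n
      have hj2 : j / S.M n < S.p n := by
        rw [Nat.div_lt_iff_lt_mul hM, mul_comm]; exact hj
      have ih := rho_eq_iff n (k / S.p n) (j % S.M n)
        ((Nat.div_lt_iff_lt_mul hN).2 hk) (Nat.mod_lt _ hM)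
      constructor
      · intro h
        have h1 : k / S.p n = unrho S n (j % S.M n) :=
          ih.1 (by rw [← h, rho_succ_mod])
        have h2 : k % S.p n = j / S.M n := by
          rw [← h, rho, Nat.add_mul_div_left _ _ hM, Nat.div_eq_of_lt (rho_lt S n _), zero_add]
        rw [unrho, ← h1, ← h2, Nat.div_add_mod']
      · intro h
        have h1 : k / S.p n = unrho S n (j % S.M n) := by
          rw [h, unrho, mul_comm, Nat.mul_add_div hN, Nat.div_eq_of_lt hj2, add_zero]
        have h2 : k % S.p n = j / S.M n := by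
          rw [h, unrho, Nat.add_comm, Nat.add_mul_mod_self_right, Nat.mod_eq_of_lt hj2]
        rw [rho, ih.2 h1, h2, Nat.mod_add_div]

theorem floor_lt_M (n : ℕ) (r : ℝ) : ⌊Int.fract r * S.M n⌋₊ < S.M n := by
  rw [Nat.floor_lt (mul_nonneg (Int.fract_nonneg r) (Nat.cast_nonneg _))]
  exact mul_lt_of_lt_one_left (by exact_mod_cast S.M_pos n) (Int.fract_lt_one r)

/-- The point of the odometer read off from a real number. -/
def point (r : ℝ) : Om S :=
  ⟨fun n => rho S n ⌊Int.fract r * S.M n⌋₊, fun n => ⟨rho_lt S n _, by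
    rw [rho_succ_mod, ← Nat.floor_div_natCast, Stack.M, radix, Nat.cast_mul, ← mul_assoc,
      mul_div_cancel_right₀ _ (by exact_mod_cast (S.p_pos n).ne')]⟩⟩

theorem measurable_point : Measurable (point S) :=
  Om.measurable_of_coord fun n =>
    (Measurable.of_discrete (f := rho S n)).comp (measurable_fract.mul_const _).nat_floor

/-- The invariant measure of the odometer. -/
def nu : Measure (Om S) := Measure.map (point S) (volume.restrict (Ico (0 : ℝ) 1))

instance : IsProbabilityMeasure (nu S) := by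
  have : IsProbabilityMeasure (volume.restrict (Ico (0 : ℝ) 1)) := ⟨by simp⟩
  exact Measure.isProbabilityMeasure_map (measurable_point S).aemeasurable

theorem nu_cyl {n j : ℕ} (hj : j < S.M n) :
    nu S {x | x.1 n = j} = ENNReal.ofReal ((S.M n : ℝ)⁻¹) := by
  have hM : (0 : ℝ) < S.M n := by exact_mod_cast S.M_pos n
  rw [nu, Measure.map_apply (measurable_point S) (Om.measurableSet_cyl n j),
    Measure.restrict_apply (measurable_point S (Om.measurableSet_cyl n j))]
  have e : point S ⁻¹' {x | x.1 n = j} ∩ Ico (0 : ℝ) 1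
      = Ico ((unrho S n j : ℝ) / S.M n) ((unrho S n j + 1) / S.M n) := by
    ext r
    have hu : (unrho S n j : ℝ) + 1 ≤ S.M n := by exact_mod_cast unrho_lt S n j hj
    simp only [mem_inter_iff, mem_preimage, mem_ofPred_eq, mem_Ico, div_le_iff₀ hM,
      lt_div_iff₀ hM]
    constructor
    · rintro ⟨h, h0, h1⟩
      have h' : rho S n ⌊Int.fract r * S.M n⌋₊ = j := h
      rw [rho_eq_iff S n _ _ (floor_lt_M S n r) hj, Int.fract_eq_self.2 ⟨h0, h1⟩,
        Nat.floor_eq_iff (mul_nonneg h0 hM.le)] at h'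
      exact h'
    · rintro ⟨h1, h2⟩
      have h0 : 0 ≤ r := nonneg_of_mul_nonneg_left ((Nat.cast_nonneg _).trans h1) hM
      have h3 : r < 1 := by nlinarith
      refine ⟨?_, h0, h3⟩
      show rho S n ⌊Int.fract r * S.M n⌋₊ = j
      rw [rho_eq_iff S n _ _ (floor_lt_M S n r) hj, Int.fract_eq_self.2 ⟨h0, h3⟩,
        Nat.floor_eq_iff (mul_nonneg h0 hM.le)]
      exact ⟨h1, h2⟩
  rw [e, Real.volume_Ico]
  congr 1
  field_simp
  ring

end Vale.Agent.P130.RankOne
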